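import Vale.Agent.P038.H765.Lem
import Vale.Agent.P038.Defs

/-!
# The expansion inequality for all sets of an arc-minimal counterexample
-/

namespace Vale.Agent.P038.H765

open Finset Vale.Agent.P038

variable {V : Type*} [Fintype V] [DecidableEq V]

open Classical in
/-- The closed out-neighbourhood. -/
noncomputable def cN (D : OGraph V) (v : V) : Finset V :=
  Finset.univ.filter fun u => u = v ∨ D.arc v u

theorem mem_cN {D : OGraph V} {v u : V} : u ∈ cN D v ↔ u = v ∨ D.arc v u := by
  classical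
  simp [cN]

theorem self_mem_cN (D : OGraph V) (v : V) : v ∈ cN D v := mem_cN.2 (Or.inl rfl)

/-- Closed out-neighbourhood of a set. -/
noncomputable abbrev nb (D : OGraph V) (S : Finset V) : Finset V := S.biUnion (cN D)

theorem mem_nb {D : OGraph V} {S : Finset V} {z : V} :
    z ∈ nb D S ↔ z ∈ S ∨ ∃ y ∈ S, D.arc y z := by
  rw [Finset.mem_biUnion]
  constructor
  · rintro ⟨y, hy, h⟩
    rcases mem_cN.1 h with rfl | h
    · exact Or.inl hy
    · exact Or.inr ⟨y, hy, h⟩
  · rintro (h | ⟨y, hy, h⟩)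
    · exact ⟨z, h, self_mem_cN D z⟩
    · exact ⟨y, hy, mem_cN.2 (Or.inr h)⟩

theorem subset_nb (D : OGraph V) (S : Finset V) : S ⊆ nb D S := fun _ h => mem_nb.2 (Or.inl h)

/-- Delete all arcs from `X` to `Z`. -/
def del (D : OGraph V) (X Z : Finset V) : OGraph V where
  arc a b := D.arc a b ∧ ¬ (a ∈ X ∧ b ∈ Z)
  loopless v h := D.loopless v h.1
  asymm _ _ h h' := D.asymm _ _ h.1 h'.1

/-- An arc-minimal counterexample. -/
structure MinCE (D : OGraph V) : Prop where
  ce : ∀ v, (N2 D v).card < (N1 D v).card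
  min : ∀ D' : OGraph V, (∀ a b, D'.arc a b → D.arc a b) →
    (∀ v, (N2 D' v).card < (N1 D' v).card) → ∀ a b, D.arc a b → D'.arc a b

omit [DecidableEq V] in
theorem exists_minCE (D0 : OGraph V) (h0 : ∀ v, (N2 D0 v).card < (N1 D0 v).card) :
    ∃ D : OGraph V, MinCE D := by
  classical
  have hex : ∃ k, ∃ D : OGraph V, (∀ v, (N2 D v).card < (N1 D v).card) ∧
      (Finset.univ.filter fun p : V × V => D.arc p.1 p.2).card = k := ⟨_, D0, h0, rfl⟩
  obtain ⟨D, hD, hk⟩ := Nat.find_spec hex
  refine ⟨D, hD, ?_⟩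
  intro D' hsub hce a b hab
  by_contra hn
  have hlt : (Finset.univ.filter fun p : V × V => D'.arc p.1 p.2).card <
      (Finset.univ.filter fun p : V × V => D.arc p.1 p.2).card := by
    refine Finset.card_lt_card (Finset.ssubset_iff_subset_ne.2 ⟨?_, ?_⟩)
    · intro p hp
      exact Finset.mem_filter.2 ⟨Finset.mem_univ _, hsub _ _ (Finset.mem_filter.1 hp).2⟩
    · intro he
      have h1 : (a, b) ∈ Finset.univ.filter fun p : V × V => D'.arc p.1 p.2 := by
        rw [he]
        exact Finset.mem_filter.2 ⟨Finset.mem_univ _, hab⟩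
      exact hn (Finset.mem_filter.1 h1).2
  rw [hk] at hlt
  exact Nat.find_min hex hlt ⟨D', hce, rfl⟩

theorem G_step {D : OGraph V} (h : MinCE D) (X : Finset V) (hne : (nb D X \ X).Nonempty) :
    (nb D (nb D X \ X) \ X).card < 2 * (nb D X \ X).card := by
  classical
  set L := nb D X \ X with hL
  by_contra hcon
  push Not at hcon
  set d : Finset V → ℤ := fun T => ((nb D T \ X).card : ℤ) - 2 * T.card with hd
  have hdL : 0 ≤ d L := by
    simp only [hd]
    have : (2 * L.card : ℤ) ≤ (nb D L \ X).card := by exact_mod_cast hcon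
    linarith
  have hempty : ∅ ∈ L.ssubsets := by
    rw [Finset.mem_ssubsets]
    exact Finset.empty_ssubset.2 hne
  obtain ⟨T, hT, hTmin⟩ := Finset.exists_min_image L.ssubsets d ⟨∅, hempty⟩
  have hTL : T ⊂ L := Finset.mem_ssubsets.1 hT
  have hd0 : d ∅ = 0 := by simp [hd]
  have hT0 : d T ≤ 0 := hd0 ▸ hTmin ∅ hempty
  set Z := L \ T with hZ
  have hall : ∀ S ⊆ Z, 2 * S.card ≤ (nb D S \ (nb D T ∪ X)).card := by
    intro S hS
    have h1 : d T ≤ d (T ∪ S) := by
      by_cases he : T ∪ S = L
      · rw [he]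
        exact hT0.trans hdL
      · refine hTmin _ (Finset.mem_ssubsets.2 (Finset.ssubset_iff_subset_ne.2 ⟨?_, he⟩))
        exact Finset.union_subset hTL.1 (hS.trans Finset.sdiff_subset)
    have hdis : Disjoint T S := by
      rw [Finset.disjoint_left]
      intro z hz hz'
      exact (Finset.mem_sdiff.1 (hS hz')).2 hz
    have e1 : nb D (T ∪ S) \ X = (nb D T \ X) ∪ (nb D S \ (nb D T ∪ X)) := by
      ext z
      simp only [nb, Finset.union_biUnion, Finset.mem_sdiff, Finset.mem_union]
      tauto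
    have e2 : Disjoint (nb D T \ X) (nb D S \ (nb D T ∪ X)) := by
      rw [Finset.disjoint_left]
      intro z hz hz'
      exact (Finset.mem_sdiff.1 hz').2 (Finset.mem_union_left _ (Finset.mem_sdiff.1 hz).1)
    simp only [hd] at h1
    rw [e1, Finset.card_union_of_disjoint e2, Finset.card_union_of_disjoint hdis] at h1
    push_cast at h1
    have h2 : (2 * S.card : ℤ) ≤ (nb D S \ (nb D T ∪ X)).card := by linarith
    exact_mod_cast h2
  set D' := del D X Z with hD'
  have hall' : ∀ v, (N2 D' v).card < (N1 D' v).card := by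
    intro y
    by_cases hy : y ∈ X
    · set Dy := N1 D y ∩ Z with hDy
      set Ey := nb D Dy \ (nb D T ∪ X) with hEy
      have hN1 : N1 D' y = N1 D y \ Dy := by
        ext z
        rw [mem_N1, Finset.mem_sdiff, hDy, Finset.mem_inter, mem_N1]
        constructor
        · rintro ⟨h1, h2⟩
          exact ⟨h1, fun h3 => h2 ⟨hy, h3.2⟩⟩
        · rintro ⟨h1, h2⟩
          exact ⟨h1, fun h3 => h2 ⟨h1, h3.2⟩⟩
      have hEsub : Ey ⊆ N2 D y ∪ Dy := by
        intro z hz
        obtain ⟨hz1, hz2⟩ := Finset.mem_sdiff.1 hz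
        have hzX : z ∉ X := fun h3 => hz2 (Finset.mem_union_right _ h3)
        have hzT : z ∉ nb D T := fun h3 => hz2 (Finset.mem_union_left _ h3)
        rw [mem_nb] at hz1
        rcases hz1 with hz1 | ⟨c, hc, hcz⟩
        · exact Finset.mem_union_right _ hz1
        · have hyc : D.arc y c := mem_N1.1 (Finset.mem_inter.1 hc).1
          by_cases hyz : D.arc y z
          · refine Finset.mem_union_right _ (Finset.mem_inter.2 ⟨mem_N1.2 hyz, ?_⟩)
            refine Finset.mem_sdiff.2 ⟨?_, ?_⟩
            · rw [hL]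
              exact Finset.mem_sdiff.2 ⟨mem_nb.2 (Or.inr ⟨y, hy, hyz⟩), hzX⟩
            · intro h3
              exact hzT (mem_nb.2 (Or.inl h3))
          · refine Finset.mem_union_left _ (mem_N2.2 ⟨?_, hyz, c, hyc, hcz⟩)
            rintro rfl
            exact hzX hy
      have hN2 : N2 D' y ⊆ (N2 D y ∪ Dy) \ Ey := by
        intro z hz
        rw [mem_N2] at hz
        obtain ⟨hzy, hnz, c, hyc, hcz⟩ := hz
        refine Finset.mem_sdiff.2 ⟨?_, ?_⟩
        · by_cases hyz : D.arc y z
          · refine Finset.mem_union_right _ (Finset.mem_inter.2 ⟨mem_N1.2 hyz, ?_⟩)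
            by_contra hzZ
            exact hnz ⟨hyz, fun h3 => hzZ h3.2⟩
          · exact Finset.mem_union_left _ (mem_N2.2 ⟨hzy, hyz, c, hyc.1, hcz.1⟩)
        · intro hzE
          obtain ⟨_, hz2⟩ := Finset.mem_sdiff.1 hzE
          have hzX : z ∉ X := fun h3 => hz2 (Finset.mem_union_right _ h3)
          have hzT : z ∉ nb D T := fun h3 => hz2 (Finset.mem_union_left _ h3)
          by_cases hcX : c ∈ X
          · have hzL : z ∈ L := by
              rw [hL]
              exact Finset.mem_sdiff.2 ⟨mem_nb.2 (Or.inr ⟨c, hcX, hcz.1⟩), hzX⟩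
            have hzZ : z ∈ Z := Finset.mem_sdiff.2 ⟨hzL, fun h3 => hzT (mem_nb.2 (Or.inl h3))⟩
            exact hcz.2 ⟨hcX, hzZ⟩
          · have hcL : c ∈ L := by
              rw [hL]
              exact Finset.mem_sdiff.2 ⟨mem_nb.2 (Or.inr ⟨y, hy, hyc.1⟩), hcX⟩
            have hcT : c ∈ T := by
              by_contra hcT
              exact hyc.2 ⟨hy, Finset.mem_sdiff.2 ⟨hcL, hcT⟩⟩
            exact hzT (mem_nb.2 (Or.inr ⟨c, hcT, hcz.1⟩))
      have h1 := Finset.card_le_card hN2
      have h2 := Finset.card_sdiff_add_card_eq_card hEsub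
      have h3 : (N2 D y ∪ Dy).card ≤ (N2 D y).card + Dy.card := Finset.card_union_le _ _
      have h4 : (N1 D' y).card + Dy.card = (N1 D y).card := by
        rw [hN1]
        exact Finset.card_sdiff_add_card_eq_card Finset.inter_subset_left
      have h5 : 2 * Dy.card ≤ Ey.card := hall Dy Finset.inter_subset_right
      have h6 := h.ce y
      omega
    · have h1 : N1 D' y = N1 D y := by
        ext z
        rw [mem_N1, mem_N1]
        exact ⟨fun h3 => h3.1, fun h3 => ⟨h3, fun h4 => hy h4.1⟩⟩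
      have h2 : N2 D' y ⊆ N2 D y := by
        intro z hz
        rw [mem_N2] at hz ⊢
        obtain ⟨hzv, hnz, c, hvc, hcz⟩ := hz
        exact ⟨hzv, fun h3 => hnz ⟨h3, fun h4 => hy h4.1⟩, c, hvc.1, hcz.1⟩
      rw [h1]
      exact lt_of_le_of_lt (Finset.card_le_card h2) (h.ce y)
  -- a row which really changes
  obtain ⟨z, hzL, hzT⟩ := Finset.exists_of_ssubset hTL
  have hzZ : z ∈ Z := Finset.mem_sdiff.2 ⟨hzL, hzT⟩
  obtain ⟨hz1, hz2⟩ := Finset.mem_sdiff.1 hzL
  rcases mem_nb.1 hz1 with hz3 | ⟨y, hy, hyz⟩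
  · exact hz2 hz3
  · have h1 := h.min D' (fun a b hab => hab.1) hall' y z hyz
    exact h1.2 ⟨hy, hzZ⟩

/-- The expansion `f(S) = |N[S]| - |S|`. -/
noncomputable def f (D : OGraph V) (S : Finset V) : ℤ := ((nb D S).card : ℤ) - S.card

theorem f_nb {D : OGraph V} (h : MinCE D) (S : Finset V) :
    f D (nb D S) ≤ f D S ∧ (nb D S ≠ S → f D (nb D S) < f D S) := by
  classical
  by_cases hS : nb D S = S
  · refine ⟨by rw [hS], fun h1 => absurd hS h1⟩
  · have hne : (nb D S \ S).Nonempty := by
      rw [Finset.sdiff_nonempty]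
      intro h1
      exact hS (Finset.Subset.antisymm h1 (subset_nb D S))
    have h1 := G_step h S hne
    have e1 : nb D (nb D S) = S ∪ (nb D (nb D S \ S) \ S) := by
      ext z
      rw [Finset.mem_union, Finset.mem_sdiff]
      constructor
      · intro hz
        by_cases hzS : z ∈ S
        · exact Or.inl hzS
        · refine Or.inr ⟨?_, hzS⟩
          rw [mem_nb] at hz
          rcases hz with hz | ⟨y, hy, hyz⟩
          · exact mem_nb.2 (Or.inl (Finset.mem_sdiff.2 ⟨hz, hzS⟩))
          · by_cases hyS : y ∈ S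
            · exact mem_nb.2 (Or.inl (Finset.mem_sdiff.2 ⟨mem_nb.2 (Or.inr ⟨y, hyS, hyz⟩), hzS⟩))
            · exact mem_nb.2 (Or.inr ⟨y, Finset.mem_sdiff.2 ⟨hy, hyS⟩, hyz⟩)
      · rintro (hz | ⟨hz, _⟩)
        · exact subset_nb D _ (subset_nb D _ hz)
        · exact Finset.biUnion_subset_biUnion_of_subset_left _ Finset.sdiff_subset hz
    have e2 : (nb D (nb D S)).card = S.card + (nb D (nb D S \ S) \ S).card := by
      conv_lhs => rw [e1]
      exact Finset.card_union_of_disjoint Finset.disjoint_sdiff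
    have e3 : (nb D S \ S).card + S.card = (nb D S).card :=
      Finset.card_sdiff_add_card_eq_card (subset_nb D S)
    have h2 : f D (nb D S) < f D S := by
      unfold f
      rw [e2]
      push_cast
      have h3 : (((nb D (nb D S \ S) \ S).card : ℕ) : ℤ) < 2 * (nb D S \ S).card := by
        exact_mod_cast h1
      have h4 : (((nb D S \ S).card : ℕ) : ℤ) + S.card = (nb D S).card := by exact_mod_cast e3
      linarith
    exact ⟨h2.le, fun _ => h2⟩

end Vale.Agent.P038.H765
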