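import Mathlib

/-!
# Generic matrices and Hall's theorem
-/

namespace Vale.Agent.P038.H765

open Finset

variable {V : Type*} [Fintype V] [DecidableEq V]

/-- The field of rational functions in the entries of a generic matrix. -/
abbrev KK (V : Type*) : Type _ := FractionRing (MvPolynomial (V × V) ℚ)

/-- The generic matrix with support `{(y, x) : y ∈ N x}`. -/
noncomputable def M (N : V → Finset V) (y x : V) : KK V :=
  if y ∈ N x then algebraMap (MvPolynomial (V × V) ℚ) (KK V) (MvPolynomial.X (y, x)) else 0

theorem M_ne {N : V → Finset V} {y x : V} (h : M N y x ≠ 0) : y ∈ N x := by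
  by_contra hc
  exact h (if_neg hc)

theorem det_ne (N : V → Finset V) (S : Finset V) (m : S → V) (hm : Function.Injective m)
    (hN : ∀ i : S, m i ∈ N i) :
    (Matrix.of fun i j : S => M N (m i) j).det ≠ 0 := by
  classical
  set A0 : Matrix S S (MvPolynomial (V × V) ℚ) :=
    Matrix.of fun i j : S => if m i ∈ N j then MvPolynomial.X (m i, (j : V)) else 0 with hA0
  have e1 : (Matrix.of fun i j : S => M N (m i) j)
      = (algebraMap (MvPolynomial (V × V) ℚ) (KK V)).mapMatrix A0 := by
    ext i j
    simp only [Matrix.of_apply, M, RingHom.mapMatrix_apply, Matrix.map_apply, hA0]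
    split_ifs with h
    · rfl
    · simp
  rw [e1, ← RingHom.map_det]
  have hinj : Function.Injective (algebraMap (MvPolynomial (V × V) ℚ) (KK V)) :=
    IsFractionRing.injective _ _
  intro h0
  rw [← map_zero (algebraMap (MvPolynomial (V × V) ℚ) (KK V))] at h0
  have h1 := hinj h0
  set c : V × V → ℚ := fun p => if ∃ i : S, m i = p.1 ∧ (i : V) = p.2 then 1 else 0 with hc
  have h2 : (MvPolynomial.eval c) A0.det = 0 := by rw [h1]; simp
  rw [RingHom.map_det] at h2
  have h3 : (MvPolynomial.eval c).mapMatrix A0 = 1 := by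
    ext i j
    simp only [RingHom.mapMatrix_apply, Matrix.map_apply, hA0, Matrix.of_apply]
    by_cases hij : i = j
    · subst hij
      rw [if_pos (hN i), MvPolynomial.eval_X, Matrix.one_apply_eq]
      simp only [hc]
      rw [if_pos ⟨i, rfl, rfl⟩]
    · rw [Matrix.one_apply_ne hij]
      split_ifs with h
      · rw [MvPolynomial.eval_X]
        simp only [hc]
        rw [if_neg]
        rintro ⟨k, hk1, hk2⟩
        have := hm hk1
        subst this
        exact hij (Subtype.ext hk2)
      · simp
  rw [h3, Matrix.det_one] at h2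
  exact one_ne_zero h2

/-- Hall's theorem, in the form used here. -/
theorem hall_match (N : V → Finset V) (S T : Finset V)
    (hall : ∀ s ⊆ S, s.card ≤ (s.biUnion N ∩ T).card) :
    ∃ m : S → V, Function.Injective m ∧ ∀ i : S, m i ∈ N i ∧ m i ∈ T := by
  classical
  have h1 : ∀ s : Finset S, s.card ≤ (s.biUnion fun i : S => N i ∩ T).card := by
    intro s
    have h2 := hall (s.map (Function.Embedding.subtype _)) (by
      intro x hx
      rw [Finset.mem_map] at hx
      obtain ⟨y, _, rfl⟩ := hx
      exact y.2)
    rw [Finset.card_map] at h2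
    refine h2.trans (Finset.card_le_card ?_)
    intro y hy
    rw [Finset.mem_inter, Finset.mem_biUnion] at hy
    obtain ⟨⟨x, hx, hy1⟩, hy2⟩ := hy
    rw [Finset.mem_map] at hx
    obtain ⟨i, hi, rfl⟩ := hx
    rw [Finset.mem_biUnion]
    exact ⟨i, hi, Finset.mem_inter.2 ⟨hy1, hy2⟩⟩
  obtain ⟨m, hm1, hm2⟩ := (Finset.all_card_le_biUnion_card_iff_exists_injective _).1 h1
  exact ⟨m, hm1, fun i => Finset.mem_inter.1 (hm2 i)⟩

theorem inj_of_hall (N : V → Finset V) (S T : Finset V)
    (hall : ∀ s ⊆ S, s.card ≤ (s.biUnion N ∩ T).card) (z : V → KK V)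
    (hz : ∀ y ∈ T, ∑ x ∈ S, M N y x * z x = 0) : ∀ x ∈ S, z x = 0 := by
  classical
  obtain ⟨m, hm1, hm2⟩ := hall_match N S T hall
  have hdet := det_ne N S m hm1 fun i => (hm2 i).1
  have h1 : (Matrix.of fun i j : S => M N (m i) j).mulVec (fun i : S => z i) = 0 := by
    ext i
    have h2 := hz (m i) (hm2 i).2
    rw [← Finset.sum_coe_sort S (fun x => M N (m i) x * z x)] at h2
    simpa [Matrix.mulVec, dotProduct] using h2
  have h3 := Matrix.eq_zero_of_mulVec_eq_zero hdet h1
  intro x hx
  exact congrFun h3 ⟨x, hx⟩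

theorem surj_of_hall (N : V → Finset V) (S T : Finset V)
    (hall : ∀ s ⊆ S, s.card ≤ (s.biUnion N ∩ T).card) (g : V → KK V) :
    ∃ u : V → KK V, (∀ b, b ∉ T → u b = 0) ∧ ∀ a ∈ S, ∑ b, M N b a * u b = g a := by
  classical
  obtain ⟨m, hm1, hm2⟩ := hall_match N S T hall
  have hdet := det_ne N S m hm1 fun i => (hm2 i).1
  set A : Matrix S S (KK V) := Matrix.of fun i j : S => M N (m i) j with hA
  have hunit : IsUnit A.det := isUnit_iff_ne_zero.2 hdet
  set c : S → KK V := Matrix.vecMul (fun i : S => g i) A⁻¹ with hc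
  have hcA : Matrix.vecMul c A = fun i : S => g i := by
    rw [hc, Matrix.vecMul_vecMul, Matrix.nonsing_inv_mul A hunit, Matrix.vecMul_one]
  refine ⟨fun b => ∑ i : S, if m i = b then c i else 0, ?_, ?_⟩
  · intro b hb
    refine Finset.sum_eq_zero fun i _ => if_neg ?_
    rintro rfl
    exact hb (hm2 i).2
  · intro a ha
    have h1 := congrFun hcA ⟨a, ha⟩
    simp only [Matrix.vecMul, dotProduct, hA, Matrix.of_apply] at h1
    rw [← h1]
    simp only [Finset.mul_sum]
    rw [Finset.sum_comm]
    refine Finset.sum_congr rfl fun i _ => ?_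
    rw [Finset.sum_eq_single (m i)]
    · rw [if_pos rfl, mul_comm]
    · intro b _ hb
      rw [if_neg (Ne.symm hb), mul_zero]
    · intro h
      exact absurd (Finset.mem_univ _) h

/-- The dimension count. -/
theorem dim_count {K U W P Q : Type*} [Field K] [AddCommGroup U] [Module K U] [AddCommGroup W]
    [Module K W] [AddCommGroup P] [Module K P] [AddCommGroup Q] [Module K Q]
    [FiniteDimensional K U] [FiniteDimensional K W] [FiniteDimensional K P]
    [FiniteDimensional K Q]
    (phi : U →ₗ[K] W) (psi : U →ₗ[K] P) (rho : P →ₗ[K] Q)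
    (hpsi : Function.Injective psi) (hrho : Function.Surjective rho)
    (h : ∀ z, phi z = 0 → rho (psi z) = 0) :
    Module.finrank K U + Module.finrank K Q ≤ Module.finrank K W + Module.finrank K P := by
  have h1 := LinearMap.finrank_range_add_finrank_ker phi
  have h2 := LinearMap.finrank_range_add_finrank_ker rho
  have h3 : Module.finrank K (LinearMap.range phi) ≤ Module.finrank K W := Submodule.finrank_le _
  have h4 : Module.finrank K (LinearMap.range rho) = Module.finrank K Q := by
    rw [LinearMap.range_eq_top.2 hrho, finrank_top]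
  have h5 : Module.finrank K (LinearMap.ker phi) ≤ Module.finrank K (LinearMap.ker rho) := by
    let f : LinearMap.ker phi →ₗ[K] LinearMap.ker rho :=
      LinearMap.codRestrict (LinearMap.ker rho) (psi.comp (LinearMap.ker phi).subtype)
        (fun z => by
          rw [LinearMap.mem_ker]
          exact h z z.2)
    refine LinearMap.finrank_le_finrank_of_injective (f := f) ?_
    intro a b hab
    have : psi a = psi b := congrArg Subtype.val hab
    exact Subtype.ext (hpsi this)
  omega

end Vale.Agent.P038.H765
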