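import Vale.Agent.P038.H765.LA

/-!
# The main lemma: `|vG| + |hG| ≤ |G| + |H0|`
-/

namespace Vale.Agent.P038.H765

open Finset

variable {V : Type*} [Fintype V] [DecidableEq V]

/-- The row condition. -/
def Row (N X Y : V → Finset V) : Prop :=
  ∀ a, ∀ S : Finset V, (∀ x ∈ S, a ∉ Y x) →
    (S \ X a).card ≤ (S.biUnion N \ (X a).biUnion N).card

open Classical in
theorem tele {N X Y : V → Finset V} (h : Row N X Y) (s : Finset V) (A : Finset V)
    (hA : ∀ a ∈ A, ∀ x ∈ s, a ∉ Y x) :
    (s.filter fun x => ∃ a ∈ A, x ∉ X a).card ≤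
      ((s.biUnion N).filter fun y => ∃ a ∈ A, y ∉ (X a).biUnion N).card := by
  induction A using Finset.induction_on with
  | empty => simp
  | insert a0 A _ ih =>
    have ih' := ih fun a ha => hA a (Finset.mem_insert_of_mem ha)
    set s1 := s.filter fun x => ∀ a ∈ A, x ∈ X a with hs1
    have h1 := h a0 s1 (fun x hx => hA a0 (Finset.mem_insert_self _ _) x
      (Finset.mem_filter.1 hx).1)
    have e1 : (s.filter fun x => ∃ a ∈ insert a0 A, x ∉ X a) ⊆
        (s.filter fun x => ∃ a ∈ A, x ∉ X a) ∪ (s1 \ X a0) := by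
      intro x hx
      obtain ⟨hxs, a, ha, hxa⟩ := Finset.mem_filter.1 hx
      by_cases hx2 : ∃ a ∈ A, x ∉ X a
      · exact Finset.mem_union_left _ (Finset.mem_filter.2 ⟨hxs, hx2⟩)
      · push Not at hx2
        refine Finset.mem_union_right _ (Finset.mem_sdiff.2 ⟨Finset.mem_filter.2 ⟨hxs, hx2⟩, ?_⟩)
        rcases Finset.mem_insert.1 ha with rfl | ha
        · exact hxa
        · exact absurd (hx2 a ha) hxa
    have e2 : ((s.biUnion N).filter fun y => ∃ a ∈ A, y ∉ (X a).biUnion N) ∪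
        (s1.biUnion N \ (X a0).biUnion N) ⊆
        (s.biUnion N).filter fun y => ∃ a ∈ insert a0 A, y ∉ (X a).biUnion N := by
      intro y hy
      rcases Finset.mem_union.1 hy with hy | hy
      · obtain ⟨hy1, a, ha, hya⟩ := Finset.mem_filter.1 hy
        exact Finset.mem_filter.2 ⟨hy1, a, Finset.mem_insert_of_mem ha, hya⟩
      · obtain ⟨hy1, hy2⟩ := Finset.mem_sdiff.1 hy
        refine Finset.mem_filter.2 ⟨?_, a0, Finset.mem_insert_self _ _, hy2⟩
        exact Finset.biUnion_subset_biUnion_of_subset_left _ (Finset.filter_subset _ _) hy1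
    have e3 : Disjoint ((s.biUnion N).filter fun y => ∃ a ∈ A, y ∉ (X a).biUnion N)
        (s1.biUnion N \ (X a0).biUnion N) := by
      rw [Finset.disjoint_left]
      intro y hy hy'
      obtain ⟨_, a, ha, hya⟩ := Finset.mem_filter.1 hy
      apply hya
      obtain ⟨x, hx, hxy⟩ := Finset.mem_biUnion.1 (Finset.mem_sdiff.1 hy').1
      exact Finset.mem_biUnion.2 ⟨x, (Finset.mem_filter.1 hx).2 a ha, hxy⟩
    calc (s.filter fun x => ∃ a ∈ insert a0 A, x ∉ X a).card
        ≤ ((s.filter fun x => ∃ a ∈ A, x ∉ X a) ∪ (s1 \ X a0)).card := Finset.card_le_card e1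
      _ ≤ (s.filter fun x => ∃ a ∈ A, x ∉ X a).card + (s1 \ X a0).card :=
          Finset.card_union_le _ _
      _ ≤ ((s.biUnion N).filter fun y => ∃ a ∈ A, y ∉ (X a).biUnion N).card +
          (s1.biUnion N \ (X a0).biUnion N).card := Nat.add_le_add ih' h1
      _ = (((s.biUnion N).filter fun y => ∃ a ∈ A, y ∉ (X a).biUnion N) ∪
          (s1.biUnion N \ (X a0).biUnion N)).card := (Finset.card_union_of_disjoint e3).symm
      _ ≤ _ := Finset.card_le_card e2

/-- Eroded family. -/
def er (N X : V → Finset V) (b : V) : Finset V :=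
  Finset.univ.filter fun x => ∀ a, b ∈ N a → x ∈ X a

omit [Fintype V] [DecidableEq V] in
theorem mem_er' {V : Type*} [Fintype V] [DecidableEq V] {N X : V → Finset V} {b x : V} :
    x ∈ er N X b ↔ ∀ a, b ∈ N a → x ∈ X a := by
  simp [er]

/-- The pairs `(a, x)` in neither relation. -/
def GG (X Y : V → Finset V) : Finset (V × V) :=
  Finset.univ.filter fun p => p.2 ∉ X p.1 ∧ p.1 ∉ Y p.2

theorem mem_GG {X Y : V → Finset V} {a x : V} : (a, x) ∈ GG X Y ↔ x ∉ X a ∧ a ∉ Y x := by
  simp [GG]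

/-- The set `H0`. -/
def H0 (N X Y : V → Finset V) : Finset (V × V) :=
  Finset.univ.filter fun p => (∃ a, p.1 ∈ N a ∧ p.2 ∉ (X a).biUnion N) ∧
    (∃ x, p.2 ∈ N x ∧ p.1 ∉ (Y x).biUnion N)

theorem mem_H0 {N X Y : V → Finset V} {b y : V} :
    (b, y) ∈ H0 N X Y ↔ (∃ a, b ∈ N a ∧ y ∉ (X a).biUnion N) ∧
      (∃ x, y ∈ N x ∧ b ∉ (Y x).biUnion N) := by
  simp only [H0, Finset.mem_filter, Finset.mem_univ, true_and]

/-- Extension by zero. -/
noncomputable def exL (S : Finset (V × V)) : (S → KK V) →ₗ[KK V] (V × V → KK V) where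
  toFun z p := if h : p ∈ S then z ⟨p, h⟩ else 0
  map_add' z z' := by
    funext p
    by_cases h : p ∈ S <;> simp [h]
  map_smul' c z := by
    funext p
    by_cases h : p ∈ S <;> simp [h]

/-- Restriction. -/
noncomputable def reL (S : Finset (V × V)) : (V × V → KK V) →ₗ[KK V] (S → KK V) where
  toFun z p := z p
  map_add' _ _ := rfl
  map_smul' _ _ := rfl

/-- The horizontal map. -/
noncomputable def hL (N : V → Finset V) : (V × V → KK V) →ₗ[KK V] (V × V → KK V) where
  toFun z p := ∑ x, M N p.2 x * z (p.1, x)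
  map_add' z z' := by
    funext p
    simp [mul_add, Finset.sum_add_distrib]
  map_smul' c z := by
    funext p
    simp only [Pi.smul_apply, smul_eq_mul, RingHom.id_apply, Finset.mul_sum]
    exact Finset.sum_congr rfl fun x _ => by ring

/-- The vertical map. -/
noncomputable def vL (N : V → Finset V) : (V × V → KK V) →ₗ[KK V] (V × V → KK V) where
  toFun z p := ∑ b, M N b p.1 * z (b, p.2)
  map_add' z z' := by
    funext p
    simp [mul_add, Finset.sum_add_distrib]
  map_smul' c z := by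
    funext p
    simp only [Pi.smul_apply, smul_eq_mul, RingHom.id_apply, Finset.mul_sum]
    exact Finset.sum_congr rfl fun x _ => by ring

theorem exL_of_mem {S : Finset (V × V)} (z : S → KK V) {p : V × V} (h : p ∈ S) :
    exL S z p = z ⟨p, h⟩ := dif_pos h

theorem exL_of_notMem {S : Finset (V × V)} (z : S → KK V) {p : V × V} (h : p ∉ S) :
    exL S z p = 0 := dif_neg h

theorem hL_apply (N : V → Finset V) (z : V × V → KK V) (b y : V) :
    hL N z (b, y) = ∑ x, M N y x * z (b, x) := rfl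

theorem vL_apply (N : V → Finset V) (z : V × V → KK V) (a x : V) :
    vL N z (a, x) = ∑ b, M N b a * z (b, x) := rfl

theorem comm (N : V → Finset V) (z : V × V → KK V) : hL N (vL N z) = vL N (hL N z) := by
  funext p
  obtain ⟨a, y⟩ := p
  rw [hL_apply, vL_apply]
  simp only [vL_apply, hL_apply, Finset.mul_sum]
  rw [Finset.sum_comm]
  refine Finset.sum_congr rfl fun b _ => Finset.sum_congr rfl fun x _ => by ring

theorem hL_ne {N : V → Finset V} {z : V × V → KK V} {b y : V} (h : hL N z (b, y) ≠ 0) :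
    ∃ x, y ∈ N x ∧ z (b, x) ≠ 0 := by
  rw [hL_apply] at h
  obtain ⟨x, _, hx⟩ := Finset.exists_ne_zero_of_sum_ne_zero h
  exact ⟨x, M_ne (left_ne_zero_of_mul hx), right_ne_zero_of_mul hx⟩

theorem vL_ne {N : V → Finset V} {z : V × V → KK V} {a x : V} (h : vL N z (a, x) ≠ 0) :
    ∃ b, b ∈ N a ∧ z (b, x) ≠ 0 := by
  rw [vL_apply] at h
  obtain ⟨b, _, hb⟩ := Finset.exists_ne_zero_of_sum_ne_zero h
  exact ⟨b, M_ne (left_ne_zero_of_mul hb), right_ne_zero_of_mul hb⟩

/-- The pairs `(b, x)` with `x ∉ X'_b` and `b ∉ N[Y_x]`. -/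
def vG (N X Y : V → Finset V) : Finset (V × V) := GG (er N X) (fun x => (Y x).biUnion N)

/-- The pairs `(a, y)` with `y ∉ N[X_a]` and `a ∉ Y'_y`. -/
def hG (N X Y : V → Finset V) : Finset (V × V) := GG (fun a => (X a).biUnion N) (er N Y)

theorem mem_vG {N X Y : V → Finset V} {b x : V} :
    (b, x) ∈ vG N X Y ↔ (∃ a, b ∈ N a ∧ x ∉ X a) ∧ b ∉ (Y x).biUnion N := by
  rw [vG, mem_GG, mem_er']
  push Not
  rfl

theorem mem_hG {N X Y : V → Finset V} {a y : V} :
    (a, y) ∈ hG N X Y ↔ y ∉ (X a).biUnion N ∧ ∃ x, y ∈ N x ∧ a ∉ Y x := by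
  rw [hG, mem_GG, mem_er']
  push Not
  rfl

theorem main_lemma {N X Y : V → Finset V} (hX : Row N X Y) (hY : Row N Y X) :
    (vG N X Y).card + (hG N X Y).card ≤ (GG X Y).card + (H0 N X Y).card := by
  classical
  let phi : (vG N X Y → KK V) →ₗ[KK V] (GG X Y → KK V) :=
    (reL (GG X Y)).comp ((vL N).comp (exL (vG N X Y)))
  let psi : (vG N X Y → KK V) →ₗ[KK V] (H0 N X Y → KK V) :=
    (reL (H0 N X Y)).comp ((hL N).comp (exL (vG N X Y)))
  let rho : (H0 N X Y → KK V) →ₗ[KK V] (hG N X Y → KK V) :=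
    (reL (hG N X Y)).comp ((vL N).comp (exL (H0 N X Y)))
  have hpsi : Function.Injective psi := by
    rw [← LinearMap.ker_eq_bot, LinearMap.ker_eq_bot']
    intro z hz
    have key : ∀ b x, (b, x) ∈ vG N X Y → exL (vG N X Y) z (b, x) = 0 := by
      intro b
      set S := Finset.univ.filter fun x => (b, x) ∈ vG N X Y with hS
      set T := Finset.univ.filter fun y => (b, y) ∈ H0 N X Y with hT
      have h1 := inj_of_hall N S T (by
        intro s hs
        have hs' : ∀ x ∈ s, (b, x) ∈ vG N X Y := fun x hx => (Finset.mem_filter.1 (hs hx)).2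
        set A := Finset.univ.filter fun a => b ∈ N a with hA
        have h2 := tele hX s A (by
          intro a ha x hx hax
          have h3 := (mem_vG.1 (hs' x hx)).2
          exact h3 (Finset.mem_biUnion.2 ⟨a, hax, (Finset.mem_filter.1 ha).2⟩))
        have e1 : (s.filter fun x => ∃ a ∈ A, x ∉ X a) = s := by
          refine Finset.filter_true_of_mem fun x hx => ?_
          obtain ⟨a, ha, hxa⟩ := (mem_vG.1 (hs' x hx)).1
          exact ⟨a, Finset.mem_filter.2 ⟨Finset.mem_univ _, ha⟩, hxa⟩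
        rw [e1] at h2
        refine h2.trans (Finset.card_le_card ?_)
        intro y hy
        obtain ⟨hy1, a, ha, hya⟩ := Finset.mem_filter.1 hy
        refine Finset.mem_inter.2 ⟨hy1, Finset.mem_filter.2 ⟨Finset.mem_univ _, ?_⟩⟩
        obtain ⟨x, hx, hxy⟩ := Finset.mem_biUnion.1 hy1
        exact mem_H0.2 ⟨⟨a, (Finset.mem_filter.1 ha).2, hya⟩, x, hxy, (mem_vG.1 (hs' x hx)).2⟩)
        (fun x => exL (vG N X Y) z (b, x)) (by
          intro y hy
          have hy' : (b, y) ∈ H0 N X Y := (Finset.mem_filter.1 hy).2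
          have h2 : hL N (exL (vG N X Y) z) (b, y) = 0 := congrFun hz ⟨(b, y), hy'⟩
          rw [hL_apply] at h2
          rw [← h2]
          refine Finset.sum_subset (Finset.subset_univ _) ?_
          intro x _ hx
          have hx' : (b, x) ∉ vG N X Y := fun h3 => hx (Finset.mem_filter.2 ⟨Finset.mem_univ _, h3⟩)
          rw [exL_of_notMem z hx', mul_zero])
      intro x hx
      exact h1 x (Finset.mem_filter.2 ⟨Finset.mem_univ _, hx⟩)
    funext p
    obtain ⟨⟨b, x⟩, hp⟩ := p
    have := key b x hp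
    rw [exL_of_mem z hp] at this
    exact this
  have hrho : Function.Surjective rho := by
    intro g
    have key : ∀ y, ∃ u : V → KK V, (∀ b, (b, y) ∉ H0 N X Y → u b = 0) ∧
        ∀ a, (a, y) ∈ hG N X Y → ∑ b, M N b a * u b = exL (hG N X Y) g (a, y) := by
      intro y
      set S := Finset.univ.filter fun a => (a, y) ∈ hG N X Y with hS
      set T := Finset.univ.filter fun b => (b, y) ∈ H0 N X Y with hT
      obtain ⟨u, hu1, hu2⟩ := surj_of_hall N S T (by
        intro s hs
        have hs' : ∀ a ∈ s, (a, y) ∈ hG N X Y := fun a ha => (Finset.mem_filter.1 (hs ha)).2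
        set A := Finset.univ.filter fun x => y ∈ N x with hA
        have h2 := tele hY s A (by
          intro x hx a ha hax
          have h3 := (mem_hG.1 (hs' a ha)).1
          exact h3 (Finset.mem_biUnion.2 ⟨x, hax, (Finset.mem_filter.1 hx).2⟩))
        have e1 : (s.filter fun a => ∃ x ∈ A, a ∉ Y x) = s := by
          refine Finset.filter_true_of_mem fun a ha => ?_
          obtain ⟨x, hx, hxa⟩ := (mem_hG.1 (hs' a ha)).2
          exact ⟨x, Finset.mem_filter.2 ⟨Finset.mem_univ _, hx⟩, hxa⟩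
        rw [e1] at h2
        refine h2.trans (Finset.card_le_card ?_)
        intro b hb
        obtain ⟨hb1, x, hx, hbx⟩ := Finset.mem_filter.1 hb
        refine Finset.mem_inter.2 ⟨hb1, Finset.mem_filter.2 ⟨Finset.mem_univ _, ?_⟩⟩
        obtain ⟨a, ha, hab⟩ := Finset.mem_biUnion.1 hb1
        exact mem_H0.2 ⟨⟨a, hab, (mem_hG.1 (hs' a ha)).1⟩, x, (Finset.mem_filter.1 hx).2, hbx⟩)
        (fun a => exL (hG N X Y) g (a, y))
      refine ⟨u, fun b hb => hu1 b fun h3 => hb (Finset.mem_filter.1 h3).2, fun a ha => ?_⟩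
      exact hu2 a (Finset.mem_filter.2 ⟨Finset.mem_univ _, ha⟩)
    choose u hu1 hu2 using key
    refine ⟨fun p => u p.1.2 p.1.1, ?_⟩
    funext p
    obtain ⟨⟨a, y⟩, hp⟩ := p
    have h1 := hu2 y a hp
    rw [exL_of_mem g hp] at h1
    rw [← h1]
    change vL N (exL (H0 N X Y) fun p => u p.1.2 p.1.1) (a, y) = _
    rw [vL_apply]
    refine Finset.sum_congr rfl fun b _ => ?_
    by_cases hb : (b, y) ∈ H0 N X Y
    · rw [exL_of_mem _ hb]
    · rw [exL_of_notMem _ hb, hu1 y b hb]
  have hcomp : ∀ z, phi z = 0 → rho (psi z) = 0 := by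
    intro z hz
    set Z := exL (vG N X Y) z with hZ
    have h1 : ∀ a x, vL N Z (a, x) ≠ 0 → x ∈ X a := by
      intro a x hax
      by_contra hx
      obtain ⟨b, hb1, hb2⟩ := vL_ne hax
      have hbx : (b, x) ∈ vG N X Y := by
        by_contra h3
        exact hb2 (exL_of_notMem z h3)
      have haY : a ∉ Y x := fun h3 =>
        (mem_vG.1 hbx).2 (Finset.mem_biUnion.2 ⟨a, h3, hb1⟩)
      exact hax (congrFun hz ⟨(a, x), mem_GG.2 ⟨hx, haY⟩⟩)
    have h2 : ∀ a y, hL N (vL N Z) (a, y) ≠ 0 → y ∈ (X a).biUnion N := by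
      intro a y hay
      obtain ⟨x, hx1, hx2⟩ := hL_ne hay
      exact Finset.mem_biUnion.2 ⟨x, h1 a x hx2, hx1⟩
    set U := exL (H0 N X Y) (psi z) with hU
    have hR : ∀ b y, (hL N Z - U) (b, y) ≠ 0 → ∀ a, b ∈ N a → y ∈ (X a).biUnion N := by
      intro b y hby a hba
      have hn : (b, y) ∉ H0 N X Y := by
        intro h3
        apply hby
        rw [Pi.sub_apply, hU, exL_of_mem _ h3]
        exact sub_self _
      have h4 : hL N Z (b, y) ≠ 0 := by
        intro h5
        apply hby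
        rw [Pi.sub_apply, hU, exL_of_notMem _ hn, h5, sub_zero]
      obtain ⟨x, hx1, hx2⟩ := hL_ne h4
      have hbx : (b, x) ∈ vG N X Y := by
        by_contra h3
        exact hx2 (exL_of_notMem z h3)
      by_contra hya
      exact hn (mem_H0.2 ⟨⟨a, hba, hya⟩, x, hx1, (mem_vG.1 hbx).2⟩)
    funext p
    obtain ⟨⟨a, y⟩, hp⟩ := p
    change vL N U (a, y) = 0
    have hy := (mem_hG.1 hp).1
    have h5 : vL N (hL N Z - U) (a, y) = 0 := by
      by_contra h6
      obtain ⟨b, hb1, hb2⟩ := vL_ne h6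
      exact hy (hR b y hb2 a hb1)
    have h6 : hL N (vL N Z) (a, y) = 0 := by
      by_contra h7
      exact hy (h2 a y h7)
    rw [comm] at h6
    rw [map_sub, Pi.sub_apply, h6, zero_sub, neg_eq_zero] at h5
    exact h5
  have h := dim_count phi psi rho hpsi hrho hcomp
  simp only [Module.finrank_fintype_fun_eq_card, Fintype.card_coe] at h
  exact h

end Vale.Agent.P038.H765
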