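import Vale.Agent.P038.H765.G

/-!
# Seymour's second neighbourhood conjecture
-/

namespace Vale.Agent.P038.H765

open Finset Vale.Agent.P038

variable {V : Type*} [Fintype V] [DecidableEq V]

/-- Compatible families. -/
structure Compat (D : OGraph V) (X Y : V → Finset V) : Prop where
  cX : ∀ a, cN D a ⊆ X a
  cY : ∀ a, cN D a ⊆ Y a
  c : ∀ a x, a ≠ x → x ∈ X a → a ∉ Y x

theorem Compat.symm {D : OGraph V} {X Y : V → Finset V} (h : Compat D X Y) : Compat D Y X :=
  ⟨h.cY, h.cX, fun a x hax h1 h2 => h.c x a (Ne.symm hax) h2 h1⟩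

theorem Compat.self_X {D : OGraph V} {X Y : V → Finset V} (h : Compat D X Y) (a : V) : a ∈ X a :=
  h.cX a (self_mem_cN D a)

theorem compat_base (D : OGraph V) : Compat D (cN D) (cN D) := by
  refine ⟨fun _ => Finset.Subset.refl _, fun _ => Finset.Subset.refl _, ?_⟩
  intro a x hax h1 h2
  rcases mem_cN.1 h1 with rfl | h1
  · exact hax rfl
  · rcases mem_cN.1 h2 with rfl | h2
    · exact hax rfl
    · exact D.asymm _ _ h1 h2

/-- The energy. -/
noncomputable def En (D : OGraph V) (X Y : V → Finset V) : ℤ :=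
  ∑ a, f D (X a) + ∑ a, f D (Y a)

theorem En_comm (D : OGraph V) (X Y : V → Finset V) : En D X Y = En D Y X := by
  unfold En
  ring

theorem exists_min (D : OGraph V) : ∃ X Y : V → Finset V, Compat D X Y ∧
    ∀ X1 Y1, Compat D X1 Y1 → En D X Y ≤ En D X1 Y1 := by
  classical
  obtain ⟨p, hp, hmin⟩ := Set.exists_min_image
    {p : (V → Finset V) × (V → Finset V) | Compat D p.1 p.2} (fun p => En D p.1 p.2)
    (Set.toFinite _) ⟨(cN D, cN D), compat_base D⟩
  exact ⟨p.1, p.2, hp, fun X1 Y1 h => hmin (X1, Y1) h⟩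

theorem row_of_min {D : OGraph V} {X Y : V → Finset V} (h : Compat D X Y)
    (hmin : ∀ X1 Y1, Compat D X1 Y1 → En D X Y ≤ En D X1 Y1) : Row (cN D) X Y := by
  classical
  intro a S hS
  set X1 : V → Finset V := Function.update X a (X a ∪ S) with hX1
  have e0 : X1 a = X a ∪ S := Function.update_self _ _ _
  have e1 : ∀ b, b ≠ a → X1 b = X b := fun b hb => Function.update_of_ne hb _ _
  have hc : Compat D X1 Y := by
    refine ⟨?_, h.cY, ?_⟩
    · intro b
      by_cases hb : b = a
      · subst hb
        rw [e0]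
        exact (h.cX b).trans Finset.subset_union_left
      · rw [e1 b hb]
        exact h.cX b
    · intro b x hbx hx
      by_cases hb : b = a
      · subst hb
        rw [e0] at hx
        rcases Finset.mem_union.1 hx with hx | hx
        · exact h.c b x hbx hx
        · exact hS x hx
      · rw [e1 b hb] at hx
        exact h.c b x hbx hx
  have h1 := hmin X1 Y hc
  have h2 : ∑ b, f D (X1 b) = f D (X a ∪ S) + ∑ b ∈ Finset.univ.erase a, f D (X b) := by
    rw [← Finset.add_sum_erase _ _ (Finset.mem_univ a), e0]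
    congr 1
    exact Finset.sum_congr rfl fun b hb => by rw [e1 b (Finset.ne_of_mem_erase hb)]
  have h3 : ∑ b, f D (X b) = f D (X a) + ∑ b ∈ Finset.univ.erase a, f D (X b) :=
    (Finset.add_sum_erase _ _ (Finset.mem_univ a)).symm
  unfold En at h1
  rw [h2, h3] at h1
  have h4 : f D (X a) ≤ f D (X a ∪ S) := by linarith
  unfold f at h4
  have h5 : (nb D (X a ∪ S)).card = (S.biUnion (cN D) \ (X a).biUnion (cN D)).card +
      (nb D (X a)).card := by
    rw [Finset.card_sdiff_add_card]
    congr 1
    rw [nb, Finset.union_biUnion, Finset.union_comm]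
  have h6 : (X a ∪ S).card = (S \ X a).card + (X a).card := by
    rw [Finset.card_sdiff_add_card, Finset.union_comm]
  rw [h5, h6] at h4
  push_cast at h4
  have h7 : (((S \ X a).card : ℕ) : ℤ) ≤ (S.biUnion (cN D) \ (X a).biUnion (cN D)).card := by
    linarith
  exact_mod_cast h7

/-- Counting the pairs outside of two relations which meet in the diagonal. -/
theorem count_GG {X Y : V → Finset V} (hX : ∀ a, a ∈ X a) (hY : ∀ a, a ∈ Y a)
    (hc : ∀ a x, a ≠ x → x ∈ X a → a ∉ Y x) :
    (GG X Y).card + ∑ a, (X a).card + ∑ a, (Y a).card =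
      Fintype.card V * Fintype.card V + Fintype.card V := by
  classical
  set RX : Finset (V × V) := Finset.univ.filter fun p => p.2 ∈ X p.1 with hRX
  set RY : Finset (V × V) := Finset.univ.filter fun p => p.1 ∈ Y p.2 with hRY
  have cX : RX.card = ∑ a, (X a).card := by
    rw [hRX, Finset.card_filter, ← Finset.univ_product_univ, Finset.sum_product]
    refine Finset.sum_congr rfl fun a _ => ?_
    simp
  have cY : RY.card = ∑ a, (Y a).card := by
    rw [hRY, Finset.card_filter, ← Finset.univ_product_univ, Finset.sum_product_right]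
    refine Finset.sum_congr rfl fun a _ => ?_
    simp
  have hint : (RX ∩ RY).card = Fintype.card V := by
    have e : RX ∩ RY = Finset.univ.image fun a : V => (a, a) := by
      ext p
      obtain ⟨a, x⟩ := p
      simp only [hRX, hRY, Finset.mem_inter, Finset.mem_filter, Finset.mem_univ, true_and,
        Finset.mem_image, Prod.mk.injEq]
      constructor
      · rintro ⟨h1, h2⟩
        by_contra hne
        have hax : a ≠ x := by
          rintro rfl
          exact hne ⟨a, rfl, rfl⟩
        exact hc a x hax h1 h2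
      · rintro ⟨b, rfl, rfl⟩
        exact ⟨hX b, hY b⟩
    rw [e, Finset.card_image_of_injective _ (fun a b hab => (Prod.mk.inj hab).1),
      Finset.card_univ]
  have hGG : GG X Y = (RX ∪ RY)ᶜ := by
    ext p
    obtain ⟨a, x⟩ := p
    rw [mem_GG, Finset.mem_compl, Finset.mem_union]
    simp only [hRX, hRY, Finset.mem_filter, Finset.mem_univ, true_and]
    tauto
  have h1 := Finset.card_union_add_card_inter RX RY
  have h2 : (RX ∪ RY)ᶜ.card + (RX ∪ RY).card = Fintype.card (V × V) :=
    Finset.card_compl_add_card _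
  rw [Fintype.card_prod] at h2
  rw [hGG, ← cX, ← cY]
  omega

theorem mem_er_self {D : OGraph V} {X Y : V → Finset V} (h : Compat D X Y) (a : V) :
    a ∈ er (cN D) X a := mem_er'.2 fun a' ha' => h.cX a' ha'

theorem er_subset {D : OGraph V} {X : V → Finset V} {a b : V} (h : b ∈ cN D a) :
    er (cN D) X b ⊆ X a := fun _ hx => mem_er'.1 hx a h

/-- One of the two mixed compatibilities. -/
theorem compat_mixed {D : OGraph V} {X Y : V → Finset V} (h : Compat D X Y) (a y : V)
    (hay : a ≠ y) (h1 : y ∈ nb D (X a)) : a ∉ er (cN D) Y y := by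
  intro h2
  obtain ⟨x, hx, hxy⟩ := Finset.mem_biUnion.1 h1
  have h3 : a ∈ Y x := er_subset hxy h2
  have h4 : a = x := by
    by_contra h5
    exact h.c a x h5 hx h3
  subst h4
  exact h.c a y hay (h.cX a hxy) (er_subset (self_mem_cN D y) h2)

/-- The eroded families are compatible in the strong sense. -/
theorem compat_er {D : OGraph V} {X Y : V → Finset V} (h : Compat D X Y) (a x : V)
    (hax : a ≠ x) (h1 : x ∈ nb D (er (cN D) X a)) : a ∉ nb D (er (cN D) Y x) := by
  intro h2
  obtain ⟨x', hx', hxx⟩ := Finset.mem_biUnion.1 h1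
  obtain ⟨a', ha', haa⟩ := Finset.mem_biUnion.1 h2
  have h3 : x' ∈ X a' := er_subset haa hx'
  have h4 : a' ∈ Y x' := er_subset hxx ha'
  have h5 : a' = x' := by
    by_contra h6
    exact h.c a' x' h6 h3 h4
  subst h5
  have h6 : a = a' := by
    by_contra h7
    exact h.c a a' h7 (er_subset (self_mem_cN D a) hx') (h.cY a' haa)
  have h7 : a' = x := by
    by_contra h8
    exact h.c a' x h8 (h.cX a' hxx) (er_subset (self_mem_cN D x) ha')
  exact hax (h6.trans h7)

theorem En_er_le {D : OGraph V} {X Y : V → Finset V} (h : Compat D X Y)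
    (hmin : ∀ X1 Y1, Compat D X1 Y1 → En D X Y ≤ En D X1 Y1) :
    En D (er (cN D) X) (er (cN D) Y) ≤ En D X Y := by
  classical
  have hR : Row (cN D) X Y := row_of_min h hmin
  have hC : Row (cN D) Y X := row_of_min h.symm (by
    intro X1 Y1 h1
    rw [En_comm D Y X, En_comm D X1 Y1]
    exact hmin Y1 X1 h1.symm)
  have h1 := main_lemma hR hC
  have h2 : (H0 (cN D) X Y).card ≤
      (GG (fun a => nb D (er (cN D) X a)) (fun a => nb D (er (cN D) Y a))).card := by
    refine Finset.card_le_card ?_
    rintro ⟨b, y⟩ hby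
    obtain ⟨⟨a, ha, hya⟩, x, hx, hbx⟩ := mem_H0.1 hby
    refine mem_GG.2 ⟨fun h3 => hya ?_, fun h3 => hbx ?_⟩
    · exact Finset.biUnion_subset_biUnion_of_subset_left _ (er_subset ha) h3
    · exact Finset.biUnion_subset_biUnion_of_subset_left _ (er_subset hx) h3
  have c1 := count_GG (X := X) (Y := Y) h.self_X h.symm.self_X h.c
  have c2 := count_GG (X := fun a => (X a).biUnion (cN D)) (Y := er (cN D) Y)
    (fun a => subset_nb D _ (h.self_X a)) (fun a => mem_er_self h.symm a)
    (fun a y hay h3 => compat_mixed h a y hay h3)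
  have c3 := count_GG (X := er (cN D) X) (Y := fun a => (Y a).biUnion (cN D))
    (fun a => mem_er_self h a) (fun a => subset_nb D _ (h.symm.self_X a))
    (fun a x hax h3 h4 => compat_mixed h.symm x a (Ne.symm hax) h4 h3)
  have c4 := count_GG (X := fun a => nb D (er (cN D) X a)) (Y := fun a => nb D (er (cN D) Y a))
    (fun a => subset_nb D _ (mem_er_self h a)) (fun a => subset_nb D _ (mem_er_self h.symm a))
    (fun a x hax h3 => compat_er h a x hax h3)
  unfold vG hG at h1
  unfold En f
  simp only [Finset.sum_sub_distrib]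
  simp only [nb] at *
  zify at h1 h2 c1 c2 c3 c4
  linarith

/-- In an arc-minimal counterexample there is a contradiction. -/
theorem false_of_minCE [Nonempty V] {D : OGraph V} (hD : MinCE D) : False := by
  classical
  obtain ⟨X, Y, h, hmin⟩ := exists_min D
  set X' := er (cN D) X with hX'
  set Y' := er (cN D) Y with hY'
  have h1 : En D X' Y' ≤ En D X Y := En_er_le h hmin
  have hc : Compat D (fun a => nb D (X' a)) (fun a => nb D (Y' a)) := by
    refine ⟨fun a => ?_, fun a => ?_, fun a x hax h3 => compat_er h a x hax h3⟩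
    · intro z hz
      exact Finset.mem_biUnion.2 ⟨a, mem_er_self h a, hz⟩
    · intro z hz
      exact Finset.mem_biUnion.2 ⟨a, mem_er_self h.symm a, hz⟩
  have h2 := hmin _ _ hc
  have sX : ∑ a, f D (nb D (X' a)) ≤ ∑ a, f D (X' a) :=
    Finset.sum_le_sum fun a _ => (f_nb hD _).1
  have sY : ∑ a, f D (nb D (Y' a)) ≤ ∑ a, f D (Y' a) :=
    Finset.sum_le_sum fun a _ => (f_nb hD _).1
  have eX : ∑ a, f D (nb D (X' a)) = ∑ a, f D (X' a) := by
    unfold En at h1 h2
    linarith
  have eY : ∑ a, f D (nb D (Y' a)) = ∑ a, f D (Y' a) := by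
    unfold En at h1 h2
    linarith
  have clX : ∀ a, nb D (X' a) = X' a := by
    intro a
    by_contra hne
    have h3 := (Finset.sum_eq_sum_iff_of_le fun a _ => (f_nb hD (X' a)).1).1 eX a
      (Finset.mem_univ a)
    exact absurd h3 ((f_nb hD (X' a)).2 hne).ne
  have clY : ∀ a, nb D (Y' a) = Y' a := by
    intro a
    by_contra hne
    have h3 := (Finset.sum_eq_sum_iff_of_le fun a _ => (f_nb hD (Y' a)).1).1 eY a
      (Finset.mem_univ a)
    exact absurd h3 ((f_nb hD (Y' a)).2 hne).ne
  have hnext : ∀ v, ∃ u, D.arc v u := by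
    intro v
    have h3 : 0 < (N1 D v).card := lt_of_le_of_lt (Nat.zero_le _) (hD.ce v)
    obtain ⟨u, hu⟩ := Finset.card_pos.1 h3
    exact ⟨u, mem_N1.1 hu⟩
  choose nx hnx using hnext
  obtain ⟨v0⟩ := ‹Nonempty V›
  obtain ⟨i, j, hij, he⟩ := Finite.exists_ne_map_eq_of_infinite fun k : ℕ => nx^[k] v0
  have main : ∀ i j : ℕ, i < j → nx^[i] v0 = nx^[j] v0 → False := by
    intro i j hij he
    set u := nx^[i] v0 with hu
    have hper : nx^[j - i] u = u := by
      rw [hu, ← Function.iterate_add_apply, Nat.sub_add_cancel hij.le, ← he, hu]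
    have hstepY : ∀ (x : V) (k : ℕ), nx^[k] x ∈ Y' x := by
      intro x k
      induction k with
      | zero => exact mem_er_self h.symm x
      | succ k ih =>
        rw [Function.iterate_succ_apply', ← clY x]
        exact mem_nb.2 (Or.inr ⟨_, ih, hnx _⟩)
    have h3 : nx u ∈ nb D (X' u) := mem_nb.2 (Or.inr ⟨u, mem_er_self h u, hnx u⟩)
    have h4 : u ∈ nb D (Y' (nx u)) := by
      rw [clY]
      have h5 := hstepY (nx u) (j - i - 1)
      rw [← Function.iterate_succ_apply] at h5
      have h6 : (j - i - 1).succ = j - i := by omega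
      rw [h6, hper] at h5
      exact h5
    have h5 : u ≠ nx u := by
      intro h6
      have h7 := hnx u
      rw [← h6] at h7
      exact D.loopless _ h7
    exact compat_er h u (nx u) h5 h3 h4
  rcases lt_or_gt_of_ne hij with h3 | h3
  · exact main i j h3 he
  · exact main j i h3 he.symm

/-- Seymour's second neighbourhood conjecture. -/
theorem seymour [Nonempty V] (D : OGraph V) : ∃ v, (N1 D v).card ≤ (N2 D v).card := by
  by_contra hcon
  push Not at hcon
  obtain ⟨D', hD'⟩ := exists_minCE D hcon
  exact false_of_minCE hD'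

end Vale.Agent.P038.H765
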